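import Crest.Agent.X261.Shp21.Core
import Crest.Agent.X261.Pole.Inst
import Crest.Agent.X261.En.Fh
import Crest.Agent.X261.Fol.Loc

/-!
# Row 261, EN shape instance (helper21), file `Fch`

For a foliated chart `C` and the tube at `x₀`: the transverse map `Phi C x₀`, the shape
`Bm C x₀ t = (d Phi)⁻¹`, the frame identity `dW_t`, and `shape`, `crude`, `inc`.
-/

set_option autoImplicit false

open Set Filter Topology Metric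

namespace Crest.Agent.X261.Shp21

open Crest.Agent.X261.BT Crest.Agent.X261.Pole Crest.Agent.X261.Top
open Crest.Agent.X261.Pole2 (jd)
open Crest.Agent.R275.Geo
open Crest.Agent.R281.Kp_487 (KP pot)
open Crest.Agent.R273.Fock_243 (FI)
open Crest.Agent.R273.Map_835 (mt)

noncomputable section

variable {n : ℕ} {M : Type} [TopologicalSpace M] {A : Atl n M} {p r : ℕ}
  {G : Type} [Group G] [MulAction G M] {𝒯 : Tube A G p} {ε : A.ι → M → FI n → ℂ}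

/-- the transverse map -/
def Phi (C : FCh 𝒯 r ε) (x₀ : M) (t : Cn p) : Cn p := 𝒯.π x₀ (C.φ.symm (t, 0))

/-- the shape -/
def Bm (C : FCh 𝒯 r ε) (x₀ : M) (t : Cn p) : Cn p →L[ℂ] Cn p := (fderiv ℂ (Phi C x₀) t).inverse

/-- the transverse domain -/
def Vt (C : FCh 𝒯 r ε) (x₀ : M) : Set (Cn p) := {t | ‖t‖ < 2 ∧ C.φ.symm (t, 0) ∈ 𝒯.T x₀}

variable (C : FCh 𝒯 r ε) {x₀ x : M} {t : Cn p}

theorem mem_tgt {q : Cn p × Cn r} : q ∈ C.φ.target ↔ ‖q.1‖ < 2 ∧ ‖q.2‖ < 2 := by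
  rw [C.tgt, mem_prod, mem_ball_zero_iff, mem_ball_zero_iff]

theorem mem_tgt0 (ht : ‖t‖ < 2) : ((t, 0) : Cn p × Cn r) ∈ C.φ.target :=
  (mem_tgt C).2 ⟨ht, by simp⟩

theorem same (h₀ : x₀ ∈ 𝒯.M0) {y z : M} (hy : y ∈ C.φ.source) (hz : z ∈ C.φ.source)
    (hT : y ∈ 𝒯.T x₀) (h : (C.φ z).1 = (C.φ y).1) : z ∈ 𝒯.T x₀ ∧ 𝒯.π x₀ z = 𝒯.π x₀ y := by
  have := C.plq y hy (𝒯.T_sub x₀ h₀ hT) z hz h
  rwa [𝒯.π_fib x₀ h₀ y hT] at this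

theorem mem_Vt (h₀ : x₀ ∈ 𝒯.M0) (hx : x ∈ C.φ.source) (hT : x ∈ 𝒯.T x₀) :
    (C.φ x).1 ∈ Vt C x₀ ∧ Phi C x₀ (C.φ x).1 = 𝒯.π x₀ x := by
  have h1 := ((mem_tgt C).1 (C.φ.map_source hx)).1
  have h2 := same C h₀ hx (C.φ.map_target (mem_tgt0 C h1)) hT
    (by rw [C.φ.right_inv (mem_tgt0 C h1)])
  exact ⟨⟨h1, h2.1⟩, h2.2⟩

theorem plq_Vt (h₀ : x₀ ∈ 𝒯.M0) (ht : t ∈ Vt C x₀) {w : Cn r} (hw : ‖w‖ < 2) :
    C.φ.symm (t, w) ∈ 𝒯.T x₀ ∧ 𝒯.π x₀ (C.φ.symm (t, w)) = Phi C x₀ t := by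
  have h1 : ((t, w) : Cn p × Cn r) ∈ C.φ.target := (mem_tgt C).2 ⟨ht.1, hw⟩
  exact same C h₀ (C.φ.map_target (mem_tgt0 C ht.1)) (C.φ.map_target h1) ht.2
    (by rw [C.φ.right_inv h1, C.φ.right_inv (mem_tgt0 C ht.1)])

theorem contAt_sec (ht : ‖t‖ < 2) : ContinuousAt (fun t : Cn p => C.φ.symm (t, (0 : Cn r))) t :=
  ContinuousAt.comp (f := fun t : Cn p => (t, (0 : Cn r)))
    (C.φ.continuousAt_symm (mem_tgt0 C ht)) (by fun_prop)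

theorem isOpen_Vt (h₀ : x₀ ∈ 𝒯.M0) : IsOpen (Vt C x₀) := isOpen_iff_mem_nhds.2 fun _ ht =>
  Filter.Eventually.and ((isOpen_lt continuous_norm continuous_const).mem_nhds ht.1)
    ((contAt_sec C ht.1).eventually ((𝒯.T_opn x₀ h₀).mem_nhds ht.2))

theorem an_Phi (h₀ : x₀ ∈ 𝒯.M0) (ht : t ∈ Vt C x₀) : AnalyticAt ℂ (Phi C x₀) t := by
  refine Crest.Agent.R266.SCV.analyticOnNhd_of_differentiableOn (isOpen_Vt C h₀)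
    (fun t ht => DifferentiableAt.differentiableWithinAt ?_) t ht
  have h1 := mem_tgt0 C ht.1
  have h2 := (Fol.tube_an 𝒯 h₀ ht.2 (C.sub (C.φ.map_target h1))).differentiableAt
  have h3 : DifferentiableAt ℂ (fun t : Cn p => A.e C.i (C.φ.symm (t, (0 : Cn r)))) t :=
    DifferentiableAt.comp (f := fun t : Cn p => (t, (0 : Cn r))) t
      (C.hol'.differentiableAt (C.φ.open_target.mem_nhds h1)) (by fun_prop)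
  refine (DifferentiableAt.comp t (f := fun t : Cn p => A.e C.i (C.φ.symm (t, (0 : Cn r))))
    h2 h3).congr_of_eventuallyEq ?_
  filter_upwards [(isOpen_Vt C h₀).mem_nhds ht] with t' ht'
  simp only [Function.comp, Phi]
  rw [(A.e C.i).left_inv (C.sub (C.φ.map_target (mem_tgt0 C ht'.1)))]

theorem diff_t (hx : x ∈ C.φ.source) {j : A.ι} (hj : x ∈ (A.e j).source) :
    DifferentiableAt ℂ (fun z => (C.φ ((A.e j).symm z)).1) (A.e j x) :=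
  (Fol.holV_an (f := fun y => (C.φ y).1) C.φ.open_source C.hol₁ hx hj).differentiableAt

/-- the chain rule `dπ = dΦ ∘ dt` -/
theorem chain (h₀ : x₀ ∈ 𝒯.M0) (hx : x ∈ C.φ.source) (hT : x ∈ 𝒯.T x₀) {j : A.ι}
    (hj : x ∈ (A.e j).source) :
    fderiv ℂ (fun z => 𝒯.π x₀ ((A.e j).symm z)) (A.e j x) = (fderiv ℂ (Phi C x₀) (C.φ x).1).comp
      (fderiv ℂ (fun z => (C.φ ((A.e j).symm z)).1) (A.e j x)) := by
  have h1 := (an_Phi C h₀ (mem_Vt C h₀ hx hT).1).differentiableAt.hasFDerivAt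
  have h2 := HasFDerivAt.comp (A.e j x) (g := Phi C x₀)
    (f := fun z => (C.φ ((A.e j).symm z)).1) (by rw [(A.e j).left_inv hj]; exact h1)
    (diff_t C hx hj).hasFDerivAt
  refine (h2.congr_of_eventuallyEq ?_).fderiv
  have h3 : Tendsto (A.e j).symm (𝓝 (A.e j x)) (𝓝 x) := (A.e j).tendsto_symm hj
  filter_upwards [h3.eventually (C.φ.open_source.mem_nhds hx),
    h3.eventually ((𝒯.T_opn x₀ h₀).mem_nhds hT)] with z k1 k2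
  exact (mem_Vt C h₀ k1 k2).2.symm

theorem inv_Phi (h₀ : x₀ ∈ 𝒯.M0) (ht : t ∈ Vt C x₀) : (fderiv ℂ (Phi C x₀) t).IsInvertible := by
  have h1 := mem_tgt0 C ht.1
  have h2 := C.φ.map_target h1
  have h3 := Fol.tube_surj 𝒯 h₀ ht.2 (C.sub h2)
  rw [chain C h₀ h2 ht.2 (C.sub h2), C.φ.right_inv h1] at h3
  have h4 : Function.Surjective (fderiv ℂ (Phi C x₀) t) := Function.Surjective.of_comp h3
  exact ⟨ContinuousLinearEquiv.ofBijective _ (LinearMap.ker_eq_bot.2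
    (LinearMap.injective_iff_surjective.2 h4)) (LinearMap.range_eq_top.2 h4), rfl⟩

theorem Bm_left (h₀ : x₀ ∈ 𝒯.M0) (ht : t ∈ Vt C x₀) (w : Cn p) :
    Bm C x₀ t (fderiv ℂ (Phi C x₀) t w) = w := (inv_Phi C h₀ ht).inverse_apply_self w

theorem Bm_right (h₀ : x₀ ∈ 𝒯.M0) (ht : t ∈ Vt C x₀) (w : Cn p) :
    fderiv ℂ (Phi C x₀) t (Bm C x₀ t w) = w := (inv_Phi C h₀ ht).self_apply_inverse w

theorem jd_Bm (h₀ : x₀ ∈ 𝒯.M0) (hx : x ∈ C.φ.source) (hT : x ∈ 𝒯.T x₀) :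
    jd (Bm C x₀ (C.φ x).1) ≠ 0 := Law.jd_ne_iff.2 fun w hw => by
  rw [← Bm_right C h₀ (mem_Vt C h₀ hx hT).1 w, hw, map_zero]

/-- the frame identity `dt = det B • dπ`, in every chart -/
theorem dW_t (h₀ : x₀ ∈ 𝒯.M0) (hx : x ∈ C.φ.source) (hT : x ∈ 𝒯.T x₀) {j : A.ι}
    (hj : x ∈ (A.e j).source) :
    dW A j (fun y => (C.φ y).1) x = (mt (Bm C x₀ (C.φ x).1)).det • dW A j (𝒯.π x₀) x := by
  rw [Frb.Main.dW_eq (f := fun y => (C.φ y).1) (diff_t C hx hj),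
    Frb.Main.dW_eq (Fol.tube_an 𝒯 h₀ hT hj).differentiableAt, ← Fol.wdg_row_left,
    chain C h₀ hx hT hj]
  congr 2
  exact ContinuousLinearMap.ext fun v => (Bm_left C h₀ (mem_Vt C h₀ hx hT).1 _).symm

variable [T2Space M] (H : KP A)

omit [T2Space M] in
theorem inj_Phi (h₀ : x₀ ∈ 𝒯.M0) (ht : t ∈ Vt C x₀) : ∃ V ∈ 𝓝 t, InjOn (Phi C x₀) V := by
  obtain ⟨L, hL⟩ := inv_Phi C h₀ ht
  have hd : HasStrictFDerivAt (Phi C x₀) (L : Cn p →L[ℂ] Cn p) t :=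
    hL ▸ (an_Phi C h₀ ht).hasStrictFDerivAt
  exact ⟨_, (hd.toOpenPartialHomeomorph _).open_source.mem_nhds
    hd.mem_toOpenPartialHomeomorph_source, (hd.toOpenPartialHomeomorph _).injOn⟩

/-- the transverse data near a point -/
theorem exists_tr (h₀ : x₀ ∈ 𝒯.M0) (ht : t ∈ Vt C x₀) : ∃ (U : Set (Cn p)) (C₀ : ℝ), t ∈ U ∧
    U ⊆ Vt C x₀ ∧ Tr (pch C) H (𝒯.T x₀) (𝒯.π x₀) (Phi C x₀) U C₀ := by
  have h1 := mem_tgt0 C ht.1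
  have h2 := C.φ.map_target h1
  obtain ⟨V, hV, hinj⟩ := inj_Phi C h₀ ht
  have hO : {z | z ∈ C.φ.source ∧ C.φ z ∈ V ×ˢ closedBall (0 : Cn r) 1} ∈
      𝓝 (C.φ.symm (t, 0)) := Filter.Eventually.and (C.φ.open_source.mem_nhds h2)
    ((C.φ.continuousAt h2).eventually (by
      rw [C.φ.right_inv h1]
      exact prod_mem_nhds hV (closedBall_mem_nhds _ one_pos)))
  obtain ⟨C₀, hC₀, h3⟩ := En.Fh.fh_tube H 𝒯 h₀ ht.2 hO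
  obtain ⟨U, hU, hUo, htU⟩ := _root_.eventually_nhds_iff.1 ((((contAt_sec C ht.1).eventually h3).and
    hV).and ((isOpen_Vt C h₀).mem_nhds ht))
  have hpt : ∀ t ∈ U, ∀ w' : Cn r, ‖w'‖ ≤ 1 → (pch C).pt (t, w') = C.φ.symm (t, w') :=
    fun t ht w' hw' => pch_pt C ⟨mem_ball_zero_iff.2 (hU t ht).2.1,
      mem_ball_zero_iff.2 (hw'.trans_lt one_lt_two)⟩
  refine ⟨U, C₀, htU, fun t ht => (hU t ht).2, hUo, hC₀, fun t ht w' hw' => ?_,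
    fun v hv t ht b hb x hx h4 => ?_⟩
  · rw [hpt t ht w' hw']
    exact plq_Vt C h₀ (hU t ht).2 (hw'.trans_lt one_lt_two)
  · obtain ⟨⟨k1, k2⟩, k3⟩ := hU t ht
    rw [𝒯.π_fib x₀ h₀ _ k3.2] at k1
    refine k1 v (hv.mono (𝒯.T_opn x₀ h₀) (subset_univ _)) b (fun z hz h5 => ?_) x ⟨hx, h4⟩
    have h6 : (C.φ z).1 = t := hinj hz.2.1 k2 ((mem_Vt C h₀ hz.1 h5.1).2.trans h5.2)
    have h7 := mem_closedBall_zero_iff.1 hz.2.2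
    have h8 := hb _ h7
    rwa [hpt t ht _ h7, ← h6, Prod.mk.eta, C.φ.left_inv hz.1] at h8

/-- the sharp shape, with a locally uniform constant -/
theorem shape (h₀ : x₀ ∈ 𝒯.M0) (hx : x ∈ C.φ.source) (hT : x ∈ 𝒯.T x₀) :
    ∃ C₀ : ℝ, ∀ᶠ z in 𝓝 x, z ∈ C.φ.source ∧ z ∈ 𝒯.T x₀ ∧ (‖(C.φ z).1‖ ≤ 1 →
      Law.Shp H (𝒯.T x₀) (𝒯.π x₀) (𝒯.π x₀ z) (Bm C x₀ (C.φ z).1) C₀ (Fs (pch C) H (C.φ z).1)) := by
  obtain ⟨U, C₀, h1, h2, D⟩ := exists_tr C H h₀ (mem_Vt C h₀ hx hT).1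
  refine ⟨C₀ + 2 * (pch C).bd H, ?_⟩
  filter_upwards [C.φ.open_source.mem_nhds hx, (𝒯.T_opn x₀ h₀).mem_nhds hT,
    (C.φ.continuousAt hx).fst.eventually (D.op.mem_nhds h1)] with z k1 k2 k3
  refine ⟨k1, k2, fun k4 => ?_⟩
  rw [← (mem_Vt C h₀ k1 k2).2]
  exact D.shp k4 k3 (an_Phi C h₀ (h2 k3)).hasStrictFDerivAt (Bm_left C h₀ (h2 k3))
    (Bm_right C h₀ (h2 k3))

/-- (F2) and (F3) -/
theorem crude (h₀ : x₀ ∈ 𝒯.M0) (hx : x ∈ C.φ.source) (hT : x ∈ 𝒯.T x₀) (h1 : ‖(C.φ x).1‖ ≤ 1) :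
    ∃ C₀ r₀ s₁ : ℝ, 0 < r₀ ∧
      F2 (𝒯.T x₀) (𝒯.π x₀) (𝒯.π x₀ x) (Fs (pch C) H (C.φ x).1) C₀ s₁ ∧
      F3 H (𝒯.T x₀) (𝒯.π x₀) (𝒯.π x₀ x) (Fs (pch C) H (C.φ x).1) C₀ r₀ s₁ := by
  obtain ⟨k1, k2⟩ := mem_Vt C h₀ hx hT
  obtain ⟨U, C₀, h2, -, D⟩ := exists_tr C H h₀ k1
  rw [← k2]
  exact D.crude h1 h2 (an_Phi C h₀ k1).hasStrictFDerivAt (Bm_left C h₀ k1) (Bm_right C h₀ k1)

/-- the field `inc` -/
theorem inc (C' : FCh 𝒯 r ε) (h₀ : x ∈ 𝒯.M0) (hx : x ∈ C.φ.source) (hx' : x ∈ C'.φ.source)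
    (h1 : ‖(C.φ x).1‖ ≤ 1) (h1' : ‖(C'.φ x).1‖ ≤ 1) {c : ℝ} (hc : 0 < c) :
    ∃ μ τ : ℝ, ∀ᶠ s in atTop, ∀ f ∈ QQ H, f ∈ Fs (pch C) H (C.φ x).1 s (c * s) →
      f ∈ Fs (pch C') H (C'.φ x).1 (s + μ) (c * s - τ) := by
  obtain ⟨_, _, _, hr, -, h3⟩ := crude C H h₀ hx (𝒯.T_mem x h₀) h1
  obtain ⟨_, _, _, -, h2, -⟩ := crude C' H h₀ hx' (𝒯.T_mem x h₀) h1'
  exact inc_of hr h3 h2 hc

/-- the hypothesis of `Law.field` without the asymptotics -/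
theorem pair (C' : FCh 𝒯 r ε) (h₀ : x₀ ∈ 𝒯.M0) (hT : x ∈ 𝒯.T x₀) (hx : x ∈ C.φ.source)
    (hx' : x ∈ C'.φ.source) (h1 : ‖(C.φ x).1‖ < 1) (h1' : ‖(C'.φ x).1‖ < 1) :
    ∃ C₀ : ℝ, ∀ᶠ z in 𝓝 x, z ∈ 𝒯.T x₀ ∧ z ∈ C.φ.source ∧ z ∈ C'.φ.source ∧
      ‖(C.φ z).1‖ < 1 ∧ ‖(C'.φ z).1‖ < 1 ∧
      jd (Bm C x₀ (C.φ z).1) ≠ 0 ∧ jd (Bm C' x₀ (C'.φ z).1) ≠ 0 ∧
      Law.Shp H (𝒯.T x₀) (𝒯.π x₀) (𝒯.π x₀ z) (Bm C x₀ (C.φ z).1) C₀ (Fs (pch C) H (C.φ z).1) ∧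
      Law.Shp H (𝒯.T x₀) (𝒯.π x₀) (𝒯.π x₀ z) (Bm C' x₀ (C'.φ z).1) C₀
        (Fs (pch C') H (C'.φ z).1) := by
  obtain ⟨a, ha⟩ := shape C H h₀ hx hT
  obtain ⟨b, hb⟩ := shape C' H h₀ hx' hT
  refine ⟨max a b, ?_⟩
  filter_upwards [ha, hb, (C.φ.continuousAt hx).fst.norm.eventually_lt continuousAt_const h1,
    (C'.φ.continuousAt hx').fst.norm.eventually_lt continuousAt_const h1'] with z k1 k2 k3 k4
  exact ⟨k1.2.1, k1.1, k2.1, k3, k4, jd_Bm C h₀ k1.1 k1.2.1, jd_Bm C' h₀ k2.1 k1.2.1,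
    (k1.2.2 k3.le).mono (le_max_left _ _), (k2.2.2 k4.le).mono (le_max_right _ _)⟩

end

end Crest.Agent.X261.Shp21
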