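import Crest.Agent.X261.Pole.Plq
import Crest.Agent.X261.Law.Main

/-!
# Row 261, EN shape instance (helper21), file `Core`

`Tr P H T π Φ U C` : the plaques `{t} × closed ball`, `t ∈ U`, of the plaque chart `P` lie in the
fibres of `π` over `Φ t`, and control them (fibre Harnack with constant `C`).
Consequences: `Tr.shp` (`Law.Shp`), `Tr.crude` ((F2), (F3)), `inc_of`.
-/

set_option autoImplicit false

open Set Filter Topology Metric

namespace Crest.Agent.X261.Shp21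

open Crest.Agent.X261.BT Crest.Agent.X261.Pole
open Crest.Agent.R275.Geo
open Crest.Agent.R281.Kp_487 (KP pot)

noncomputable section

variable {n : ℕ} {M : Type} [TopologicalSpace M] {A : Atl n M} {p r : ℕ}

/-- the standard constraints of a plaque chart -/
def Fs (P : PCh A p r) (H : KP A) (y : Cn p) (s h : ℝ) : Set (M → ℝ) := P.F H y (rad s • 1) h

/-- (F2) -/
def F2 (T : Set M) (π : M → Cn p) (y : Cn p) (F : ℝ → ℝ → Set (M → ℝ)) (C₀ s₁ : ℝ) : Prop :=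
  ∀ s ≥ s₁, ∀ h ≥ 0, ∀ f : M → ℝ,
    (∀ x ∈ T, ‖π x - y‖ ^ 2 ≤ Real.exp (C₀ - s) → f x ≤ -h - C₀) → f ∈ F s h

/-- (F3) -/
def F3 (H : KP A) (T : Set M) (π : M → Cn p) (y : Cn p) (F : ℝ → ℝ → Set (M → ℝ))
    (C₀ r₀ s₁ : ℝ) : Prop :=
  ∀ s ≥ s₁, ∀ h ≥ 0, ∀ f : M → ℝ, PP H f → (∀ x, f x ≤ 0) → f ∈ F s h →
    ∀ x ∈ T, ‖π x - y‖ ≤ r₀ → f x ≤ -h + C₀ +
      h / (s - C₀) * Real.log (max (Real.exp (s + C₀) * ‖π x - y‖ ^ 2) 1)

variable {P : PCh A p r} {H : KP A} {T : Set M} {π : M → Cn p} {Φ : Cn p → Cn p} {U : Set (Cn p)}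
  {C : ℝ} {y t : Cn p} {f : M → ℝ} {s h : ℝ}

theorem exp_neg_one_le : Real.exp (-1) ≤ 1 / 2 := by
  rw [Real.exp_neg, one_div]
  exact inv_anti₀ two_pos (by linarith [Real.add_one_le_exp 1])

theorem sq_exp (s : ℝ) : Real.exp (-s / 2) ^ 2 = Real.exp (-s) := by
  rw [← Real.exp_nat_mul]; congr 1; push_cast; ring

theorem logmax_nonneg (a : ℝ) : 0 ≤ Real.log (max a 1) := Real.log_nonneg (le_max_right _ _)

theorem logmax_mono {a b : ℝ} (h : a ≤ b) : Real.log (max a 1) ≤ Real.log (max b 1) :=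
  Real.log_le_log (lt_max_of_lt_right one_pos) (max_le_max_right _ h)

theorem mem_Fs : f ∈ Fs P H y s h ↔ ∀ t, ‖t - y‖ ≤ Real.exp (-s / 2) → ∀ w', ‖w'‖ ≤ 1 →
    f (P.pt (t, w')) + P.rho H (t, w') ≤ -h := by
  rw [Fs, PCh.mem_F]
  constructor
  · intro hf t ht w' hw'
    have := hf ((rad s)⁻¹ • (t - y)) (by
      rw [norm_smul, norm_inv, norm_rad, inv_mul_le_iff₀ (Real.exp_pos _), mul_one]; exact ht) w' hw'
    simpa [smul_smul, mul_inv_cancel₀ (rad_ne s), inv_mul_cancel₀ (rad_ne s)] using this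
  · intro hf w hw w' hw'
    refine hf _ ?_ w' hw'
    rw [add_sub_cancel_left, smul_apply, one_apply_eq_self,
      norm_smul, norm_rad]
    exact mul_le_of_le_one_right (Real.exp_pos _).le hw

/-- three circles in the transverse coordinate -/
theorem key (hf : QP H univ f) (hf0 : f ≤ 0) (hy : ‖y‖ ≤ 1) (hs : 2 < s)
    (hF : f ∈ Fs P H y s h) (ht : ‖t - y‖ ≤ Real.exp (-1)) {w' : Cn r} (hw' : ‖w'‖ ≤ 1) :
    f (P.pt (t, w')) ≤ -h + 2 * P.bd H +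
      h / (s - 2) * Real.log (max (Real.exp s * ‖t - y‖ ^ 2) 1) := by
  set m := max (Real.exp s * ‖t - y‖ ^ 2) 1 with hm
  have m0 : 0 < m := lt_max_of_lt_right one_pos
  have hs2 : s - 2 ≠ 0 := (sub_pos.2 hs).ne'
  set β := h / (s - 2) with hβ
  have hb := P.bd_nonneg H
  have h1 : f ∈ P.F H y (rad 2 • 1) ((-P.bd H - β * 2) + β * 2) := by
    rw [sub_add_cancel]
    exact PCh.mem_F_bd (by rw [norm_smul, norm_rad]; exact PCh.std hy) hf0
  have h2 : f ∈ P.F H y (rad s • 1) ((-P.bd H - β * 2) + β * s) := by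
    refine PCh.F_mono (fun w hw => ⟨w, hw, rfl⟩) ?_ hF
    have : β * (s - 2) = h := div_mul_cancel₀ _ hs2
    linarith
  have h3 : Real.log m ≤ s - 2 := by
    rw [Real.log_le_iff_le_exp m0]
    refine max_le ?_ (Real.one_le_exp (by linarith))
    have := pow_le_pow_left₀ (norm_nonneg _) ht 2
    rw [← Real.exp_nat_mul] at this
    rw [sub_eq_add_neg s, Real.exp_add]
    refine mul_le_mul_of_nonneg_left (this.trans_eq ?_) (Real.exp_pos _).le
    congr 1; push_cast; ring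
  have h4 : f ∈ Fs P H y (s - Real.log m) _ := PCh.three hf (PCh.std' hy) h1 h2
    (s := s - Real.log m) (by linarith) (by linarith [logmax_nonneg (Real.exp s * ‖t - y‖ ^ 2)])
  have h5 : ‖t - y‖ ≤ Real.exp (-(s - Real.log m) / 2) := by
    refine le_of_sq_le_sq ?_ (Real.exp_pos _).le
    rw [sq_exp, neg_sub, Real.exp_sub, Real.exp_log m0, le_div_iff₀ (Real.exp_pos _), mul_comm]
    exact le_max_left _ _
  have h6 := mem_Fs.1 h4 t h5 w' hw'
  have h7 := (abs_le.1 (P.abs_rho_le H (q := (t, w')) (by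
    have := norm_le_norm_add_norm_sub' t y
    linarith [exp_neg_one_le]) (hw'.trans (by norm_num)))).1
  have : β * (s - 2) = h := div_mul_cancel₀ _ hs2
  nlinarith

/-- transverse data -/
structure Tr (P : PCh A p r) (H : KP A) (T : Set M) (π : M → Cn p) (Φ : Cn p → Cn p)
    (U : Set (Cn p)) (C : ℝ) : Prop where
  op : IsOpen U
  nn : 0 ≤ C
  pl : ∀ t ∈ U, ∀ w', ‖w'‖ ≤ 1 → P.pt (t, w') ∈ T ∧ π (P.pt (t, w')) = Φ t
  fh : ∀ v, QP H univ v → ∀ t ∈ U, ∀ b : ℝ, (∀ w', ‖w'‖ ≤ 1 → v (P.pt (t, w')) ≤ b) →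
    ∀ x ∈ T, π x = Φ t → v x ≤ b + C

theorem ev_small {δ : ℝ} (hδ : 0 < δ) : ∀ᶠ s : ℝ in atTop, Real.exp (-s / 2) ≤ δ := by
  filter_upwards [eventually_ge_atTop (-2 * Real.log δ)] with s hs
  rw [← Real.exp_log hδ]
  exact Real.exp_le_exp.2 (by linarith)

namespace Tr

/-- inner inclusion for a gauge `N` -/
theorem inn (D : Tr P H T π Φ U C) (hy : ‖y‖ ≤ 1) (hyU : y ∈ U) {N : Cn p → ℝ} {a : ℝ}
    (hN : ∀ᶠ t in 𝓝 y, N (Φ t) ≤ Real.exp a * ‖t - y‖ ^ 2) :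
    ∀ᶠ s in atTop, ∀ h : ℝ, ∀ f : M → ℝ,
      (∀ x ∈ T, N (π x) ≤ Real.exp (a - s) → f x ≤ -h - P.bd H) → f ∈ Fs P H y s h := by
  obtain ⟨δ, hδ, h1⟩ := Metric.nhds_basis_closedBall.eventually_iff.1
    (hN.and (D.op.mem_nhds hyU))
  filter_upwards [ev_small hδ, ev_small (δ := 1 / 2) (by norm_num)] with s hs hs' h f hf
  refine mem_Fs.2 fun t ht w' hw' => ?_
  obtain ⟨h2, h3⟩ := h1 (mem_closedBall_iff_norm.2 (ht.trans hs))
  obtain ⟨h4, h5⟩ := D.pl t h3 w' hw'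
  have h6 := hf _ h4 (by
    rw [h5, sub_eq_add_neg, Real.exp_add, ← sq_exp]
    exact h2.trans (mul_le_mul_of_nonneg_left (pow_le_pow_left₀ (norm_nonneg _) ht 2)
      (Real.exp_pos _).le))
  have h7 := (abs_le.1 (P.abs_rho_le H (q := (t, w')) (by
    have := norm_le_norm_add_norm_sub' t y
    linarith) (hw'.trans (by norm_num)))).2
  linarith

/-- outer estimate for a gauge `N` -/
theorem out (D : Tr P H T π Φ U C) (hy : ‖y‖ ≤ 1) (hyU : y ∈ U) (hm : map Φ (𝓝 y) = 𝓝 (Φ y))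
    {N : Cn p → ℝ} {a : ℝ} (hN : ∀ᶠ t in 𝓝 y, ‖t - y‖ ^ 2 ≤ Real.exp a * N (Φ t)) :
    ∃ ρ > (0 : ℝ), ∀ s, 2 < s → ∀ h, 0 ≤ h → ∀ f, QP H univ f → f ≤ 0 → f ∈ Fs P H y s h →
      ∀ x ∈ T, ‖π x - Φ y‖ ≤ ρ → f x ≤ -h + (C + 2 * P.bd H) +
        h / (s - 2) * Real.log (max (Real.exp (s + a) * N (π x)) 1) := by
  have h0 := image_mem_map (m := Φ) ((hN.and (D.op.mem_nhds hyU)).and
    (closedBall_mem_nhds y (Real.exp_pos (-1))))
  rw [hm] at h0
  obtain ⟨ρ, hρ, h1⟩ := Metric.nhds_basis_closedBall.mem_iff.1 h0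
  refine ⟨ρ, hρ, fun s hs h hh f hf hf0 hF x hx h2 => ?_⟩
  obtain ⟨t, ⟨⟨h3, h4⟩, h5⟩, h6⟩ := h1 (mem_closedBall_iff_norm.2 h2)
  have h7 := D.fh f hf t h4 _ (fun w' hw' =>
    key hf hf0 hy hs hF (mem_closedBall_iff_norm.1 h5) hw') x hx h6.symm
  have h8 : Real.exp s * ‖t - y‖ ^ 2 ≤ Real.exp (s + a) * N (π x) := by
    rw [Real.exp_add, mul_assoc, ← h6]
    exact mul_le_mul_of_nonneg_left h3 (Real.exp_pos _).le
  have h9 := mul_le_mul_of_nonneg_left (logmax_mono h8) (div_nonneg hh (sub_pos.2 hs).le)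
  linarith

end Tr

/-- two-sided comparison near a point with invertible derivative -/
theorem sharp {B L : Cn p →L[ℂ] Cn p} (hd : HasFDerivAt Φ L y) (hB : ∀ w, B (L w) = w) {e : ℝ}
    (he : 0 < e) : ∀ᶠ t in 𝓝 y, ‖B (Φ t - Φ y)‖ ^ 2 ≤ Real.exp e * ‖t - y‖ ^ 2 ∧
      ‖t - y‖ ^ 2 ≤ Real.exp e * ‖B (Φ t - Φ y)‖ ^ 2 := by
  set η := 1 - Real.exp (-e / 2) with hη
  have e1 : Real.exp (-e / 2) < 1 := Real.exp_lt_one_iff.2 (by linarith)
  have e0 := Real.exp_pos (-e / 2)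
  have η0 : 0 < η := sub_pos.2 e1
  have h1 := (B.hasFDerivAt.comp y hd).isLittleO.def η0
  have e2 : Real.exp e * Real.exp (-e / 2) ^ 2 = 1 := by
    rw [sq_exp, ← Real.exp_add, add_neg_cancel, Real.exp_zero]
  filter_upwards [h1] with t ht
  simp only [Function.comp, ContinuousLinearMap.comp_apply, hB, ← map_sub] at ht
  set a := ‖B (Φ t - Φ y)‖
  set b := ‖t - y‖
  have a0 : 0 ≤ a := norm_nonneg _
  have b0 : 0 ≤ b := norm_nonneg _
  have h2 : |a - b| ≤ η * b := (abs_norm_sub_norm_le _ _).trans ht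
  obtain ⟨h3, h4⟩ := abs_le.1 h2
  have h5 : Real.exp (-e / 2) * b ≤ a := by rw [hη] at h3; linarith
  have h6 : Real.exp (-e / 2) * a ≤ b := by
    have : a ≤ (2 - Real.exp (-e / 2)) * b := by rw [hη] at h4; linarith
    nlinarith [mul_le_mul_of_nonneg_left this e0.le, mul_nonneg (sq_nonneg (1 - Real.exp (-e / 2))) b0]
  have key : ∀ u v : ℝ, 0 ≤ u → Real.exp (-e / 2) * u ≤ v → u ^ 2 ≤ Real.exp e * v ^ 2 :=
    fun u v hu h => by
      have := mul_le_mul_of_nonneg_left (pow_le_pow_left₀ (by positivity) h 2) (Real.exp_pos e).le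
      rwa [mul_pow, ← mul_assoc, e2, one_mul] at this
  exact ⟨key a b a0 h6, key b a b0 h5⟩

theorem map_eq {B L : Cn p →L[ℂ] Cn p} (hd : HasStrictFDerivAt Φ L y) (hB : ∀ w, L (B w) = w) :
    map Φ (𝓝 y) = 𝓝 (Φ y) :=
  hd.map_nhds_eq_of_surj (LinearMap.range_eq_top.2 fun w => ⟨B w, hB w⟩)

theorem sq_op_le (B : Cn p →L[ℂ] Cn p) (w : Cn p) {a : ℝ} (ha : ‖B‖ ^ 2 ≤ a) :
    ‖B w‖ ^ 2 ≤ Real.exp a * ‖w‖ ^ 2 := by
  refine (pow_le_pow_left₀ (norm_nonneg _) (B.le_opNorm w) 2).trans ?_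
  rw [mul_pow]
  exact mul_le_mul_of_nonneg_right (by linarith [Real.add_one_le_exp a]) (sq_nonneg _)

namespace Tr

variable {B L : Cn p →L[ℂ] Cn p}

/-- the sharp shape -/
theorem shp (D : Tr P H T π Φ U C) (hy : ‖y‖ ≤ 1) (hyU : y ∈ U) (hd : HasStrictFDerivAt Φ L y)
    (hB : ∀ w, B (L w) = w) (hB' : ∀ w, L (B w) = w) :
    Law.Shp H T π (Φ y) B (C + 2 * P.bd H) (Fs P H y) := by
  have hb := P.bd_nonneg H
  have hC := D.nn
  refine ⟨fun e he => ?_, fun e he c c' hc hcc => ?_⟩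
  · filter_upwards [D.inn hy hyU (N := fun z => ‖B (z - Φ y)‖ ^ 2)
      ((sharp hd.hasFDerivAt hB he).mono fun _ h => h.1)] with s hs h _ f hf
    exact hs h f fun x hx h1 => (hf x hx h1).trans (by linarith)
  · obtain ⟨ρ, hρ, h1⟩ := D.out hy hyU (map_eq hd hB') (N := fun z => ‖B (z - Φ y)‖ ^ 2)
      ((sharp hd.hasFDerivAt hB he).mono fun _ h => h.2)
    refine ⟨ρ, hρ, ?_⟩
    filter_upwards [eventually_gt_atTop 2, eventually_ge_atTop (2 * c' / (c' - c))]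
      with s hs hs' f hf hF x hx h2
    have h3 := h1 s hs (c * s) (by positivity) f hf.1.qp hf.2 hF x hx h2
    have h4 : c * s / (s - 2) ≤ c' := by
      rw [div_le_iff₀ (sub_pos.2 hs)]
      rw [div_le_iff₀ (sub_pos.2 hcc)] at hs'
      linarith
    rw [mul_comm (Real.exp _)] at h3
    exact h3.trans (add_le_add_right (mul_le_mul_of_nonneg_right h4 (logmax_nonneg _)) _)

/-- the crude shape: (F2), (F3) -/
theorem crude (D : Tr P H T π Φ U C) (hy : ‖y‖ ≤ 1) (hyU : y ∈ U) (hd : HasStrictFDerivAt Φ L y)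
    (hB : ∀ w, B (L w) = w) (hB' : ∀ w, L (B w) = w) :
    ∃ C₀ r₀ s₁ : ℝ, 0 < r₀ ∧ F2 T π (Φ y) (Fs P H y) C₀ s₁ ∧
      F3 H T π (Φ y) (Fs P H y) C₀ r₀ s₁ := by
  have hb := P.bd_nonneg H
  have hC := D.nn
  set C₀ := C + 2 * P.bd H + 2 + ‖B‖ ^ 2 + ‖L‖ ^ 2 with hC₀
  have b0 := sq_nonneg ‖B‖
  have l0 := sq_nonneg ‖L‖
  have h0 := sharp hd.hasFDerivAt hB one_pos
  have e1 : Real.exp C₀ = Real.exp (C₀ - 1) * Real.exp 1 := by rw [← Real.exp_add, sub_add_cancel]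
  obtain ⟨s₁, h1⟩ := eventually_atTop.1 (D.inn hy hyU (N := fun z => ‖z - Φ y‖ ^ 2) (a := C₀)
    (h0.mono fun t ht => by
      have := sq_op_le L (B (Φ t - Φ y)) (a := C₀ - 1) (by linarith)
      rw [hB'] at this
      rw [e1, mul_assoc]
      exact this.trans (mul_le_mul_of_nonneg_left ht.1 (Real.exp_pos _).le)))
  obtain ⟨ρ, hρ, h2⟩ := D.out hy hyU (map_eq hd hB') (N := fun z => ‖z - Φ y‖ ^ 2) (a := C₀)
    (h0.mono fun t ht => by
      have := sq_op_le B (Φ t - Φ y) (a := C₀ - 1) (by linarith)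
      rw [e1, mul_comm (Real.exp (C₀ - 1)), mul_assoc]
      exact ht.2.trans (mul_le_mul_of_nonneg_left this (Real.exp_pos _).le))
  refine ⟨C₀, ρ, max s₁ (C₀ + 1), hρ, fun s hs h _ f hf => ?_, fun s hs h hh f hf hf0 hF x hx h3 => ?_⟩
  · exact h1 s ((le_max_left _ _).trans hs) h f fun x hx h4 => (hf x hx h4).trans (by linarith)
  · have h4 : C₀ + 1 ≤ s := (le_max_right _ _).trans hs
    have h5 := h2 s (by linarith) h hh f hf.qp hf0 hF x hx h3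
    have h6 : h / (s - 2) ≤ h / (s - C₀) := div_le_div_of_nonneg_left hh (by linarith) (by linarith)
    have h7 := mul_le_mul_of_nonneg_right h6
      (logmax_nonneg (Real.exp (s + C₀) * ‖π x - Φ y‖ ^ 2))
    linarith

end Tr

/-- the field `inc` from (F3) and (F2) -/
theorem inc_of {F F' : ℝ → ℝ → Set (M → ℝ)} {C₀ C₀' r₀ s₁ s₁' c : ℝ} (hr : 0 < r₀)
    (h3 : F3 H T π y F C₀ r₀ s₁) (h2 : F2 T π y F' C₀' s₁') (hc : 0 < c) :
    ∃ μ τ : ℝ, ∀ᶠ s in atTop, ∀ f ∈ QQ H, f ∈ F s (c * s) → f ∈ F' (s + μ) (c * s - τ) := by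
  refine ⟨C₀ + C₀', C₀ + C₀', ?_⟩
  filter_upwards [eventually_ge_atTop s₁, eventually_ge_atTop (s₁' - (C₀ + C₀')),
    eventually_ge_atTop ((C₀ + C₀') / c), eventually_ge_atTop 0,
    (tendsto_atTop_add_const_right _ C₀ tendsto_id).eventually (ev_small hr)]
    with s k1 k2 k3 k4 k5 f hf hF
  rw [div_le_iff₀ hc] at k3
  refine h2 _ (by linarith) _ (by linarith) f fun x hx h4 => ?_
  rw [show C₀' - (s + (C₀ + C₀')) = -(s + C₀) by ring] at h4
  have h5 := h3 s k1 (c * s) (by positivity) f hf.1 hf.2 hF x hx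
    ((le_of_sq_le_sq (by rwa [sq_exp]) (Real.exp_pos _).le).trans k5)
  rw [max_eq_right (by
    have := mul_le_mul_of_nonneg_left h4 (Real.exp_pos (s + C₀)).le
    rwa [← Real.exp_add, add_neg_cancel, Real.exp_zero] at this), Real.log_one] at h5
  linarith

end

end Crest.Agent.X261.Shp21
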