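import Crest.Agent.X261.Shp21.Fch
import Crest.Agent.X261.Pole.AsyI
import Crest.Agent.X261.Law.Fld
import Crest.Agent.X261.En.Geo

/-!
# Row 261, EN shape instance (helper21), file `Law`: the fields `asy`, `inc`, `law`
-/

set_option autoImplicit false
set_option linter.unusedSectionVars false

open Set Filter Topology Metric Matrix

namespace Crest.Agent.X261.Shp21

open Crest.Agent.X261.BT Crest.Agent.X261.Pole Crest.Agent.X261.Top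
open Crest.Agent.X261.Pole2 (jd k1 FIN Vol tb_of_tube)
open Crest.Agent.X261.En.Geo (lam lam_sub)
open Crest.Agent.R275.Geo Crest.Agent.R275.Core144
open Crest.Agent.R273.Defs_333
open Crest.Agent.R281.Kp_487 (KP pot)
open Crest.Agent.R273.Fock_243 (FI Gam)

noncomputable section

variable {n : ℕ} {M : Type} [TopologicalSpace M] {A : Atl n M} {p r : ℕ}
  {G : Type} [Group G] [MulAction G M] {𝒯 : Tube A G p} {ε : A.ι → M → FI n → ℂ} {L : LB A}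

/-- the frame identity in terms of the shapes -/
theorem lam_jd (hn : p + r = n) (h : HM L)
    (tr : ∀ i j, ∀ y ∈ (A.e i).source ∩ (A.e j).source,
      ε i y = (L.g i j y)⁻¹ • (Gam (Jm A i j y)ᵀ *ᵥ ε j y))
    (C C' : FCh 𝒯 r ε) {x₀ x : M} (h₀ : x₀ ∈ 𝒯.M0) (hT : x ∈ 𝒯.T x₀) (hx : x ∈ C.φ.source)
    (hx' : x ∈ C'.φ.source) : lam h C x - lam h C' x =
      Real.log (jd (Bm C' x₀ (C'.φ x).1)) - Real.log (jd (Bm C x₀ (C.φ x).1)) :=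
  lam_sub hn h tr C C' hx hx' (Fol.tube_an 𝒯 h₀ hT (C'.sub hx')).differentiableAt
    (dW_t C h₀ hx hT (C.sub hx)) (dW_t C' h₀ hx' hT (C'.sub hx'))

variable [T2Space M] {H : KP A}

theorem f23 (C : FCh 𝒯 r ε) {x₀ x : M} (h₀ : x₀ ∈ 𝒯.M0) (hx : x ∈ C.φ.source) (hT : x ∈ 𝒯.T x₀)
    (h1 : ‖(C.φ x).1‖ ≤ 1) :
    F23 H (𝒯.T x₀) (𝒯.π x₀) (𝒯.π x₀ x) (Fs (pch C) H (C.φ x).1) := crude C H h₀ hx hT h1

variable [MeasurableSpace M] [BorelSpace M] [Countable A.ι]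

/-- the fields `asy`, `inc`, `law` of `EnP.Dat` with `S = M0ᶜ ∪ Bad` -/
theorem fields [PreconnectedSpace M] (hH : H.Pos) (hS : Slow H) (hp : 1 ≤ p) (hn : p + r = n)
    (h : HM L) (tr : ∀ i j, ∀ y ∈ (A.e i).source ∩ (A.e j).source,
      ε i y = (L.g i j y)⁻¹ • (Gam (Jm A i j y)ᵀ *ᵥ ε j y))
    (hfin : ∀ x₀ ∈ 𝒯.M0, ∀ x ∈ 𝒯.T x₀, x ∉ 𝒯.Bad → ∀ c > 0,
      FIN H (𝒯.T x₀) (𝒯.π x₀) (𝒯.π x₀ x) c)
    {κ : Type*} (ch : κ → FCh 𝒯 r ε) {O : κ → Set M} (hO : ∀ k, IsOpen (O k))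
    (hs : ∀ k, ∀ x ∈ O k, x ∈ (ch k).φ.source ∧ ‖((ch k).φ x).1‖ < 1)
    (hcov : ∀ x ∈ 𝒯.M0, ∃ k, x ∈ O k) {X : κ → Cn p → PF (lsOf hH hS)}
    (hX : ∀ k y, ‖y‖ < 1 → (X k y).F = Fs (pch (ch k)) H y) :
    ∃ k0 : ℝ, 0 < k0 ∧
      (∀ k, ∀ x ∈ O k \ (𝒯.M0ᶜ ∪ 𝒯.Bad), (X k ((ch k).φ x).1).Asy k0 p) ∧
      (∀ k k', ∀ x ∈ (O k ∩ O k') \ (𝒯.M0ᶜ ∪ 𝒯.Bad), ∀ c : ℝ, 0 < c → ∃ μ τ : ℝ, ∀ᶠ s in atTop,
        ∀ f ∈ (lsOf hH hS).Q, f ∈ (X k ((ch k).φ x).1).F s (c * s) →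
          f ∈ (X k' ((ch k').φ x).1).F (s + μ) (c * s - τ)) ∧
      ∀ k k', ∀ x ∈ (O k ∩ O k') \ (𝒯.M0ᶜ ∪ 𝒯.Bad), ∀ e : ℝ, 0 < e →
        ∀ᶠ q : ℝ × M in atTop ×ˢ 𝓝 x, q.2 ∉ 𝒯.M0ᶜ ∪ 𝒯.Bad →
          (X k ((ch k).φ q.2).1).dl k0 p q.1 0 - kc k0 p q.1 * lam h (ch k) q.2 ≤
            (X k' ((ch k').φ q.2).1).dl k0 p q.1 0 - kc k0 p q.1 * lam h (ch k') q.2 +
              e * kc k0 p q.1 := by
  obtain ⟨k0, hk, h1, h2⟩ := asy_tube hH hS 𝒯 hp (by omega) hfin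
    (Y := fun k x => X k ((ch k).φ x).1) hcov fun x₀ h₀ k x hx hT => by
      rw [hX k _ (hs k x hx).2]
      exact f23 (ch k) h₀ (hs k x hx).1 hT (hs k x hx).2.le
  have hm : ∀ x, x ∉ 𝒯.M0ᶜ ∪ 𝒯.Bad → x ∈ 𝒯.M0 ∧ x ∉ 𝒯.Bad := fun x hx =>
    ⟨not_not.1 fun h => hx (Or.inl h), fun h => hx (Or.inr h)⟩
  refine ⟨k0, hk, fun k x hx => h1 k x hx.1 (hm x hx.2).1 (hm x hx.2).2,
    fun k k' x hx c hc => ?_, fun k k' x hx e he => ?_⟩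
  · obtain ⟨a1, a2⟩ := hs k x hx.1.1
    obtain ⟨b1, b2⟩ := hs k' x hx.1.2
    rw [hX k _ a2, hX k' _ b2]
    exact inc (ch k) H (ch k') (hm x hx.2).1 a1 b1 a2.le b2.le hc
  · obtain ⟨a1, a2⟩ := hs k x hx.1.1
    obtain ⟨b1, b2⟩ := hs k' x hx.1.2
    have h₀ := (hm x hx.2).1
    obtain ⟨V, V0, hV, hkV⟩ := h2 x h₀
    obtain ⟨C₀, h3⟩ := pair (ch k) H (ch k') h₀ (𝒯.T_mem x h₀) a1 b1 a2 b2
    refine Law.field hH hS (tb_of_tube 𝒯 h₀) hV V0 hp hkV (X := fun z => X k ((ch k).φ z).1)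
      (X' := fun z => X k' ((ch k').φ z).1) (C := C₀) (B := fun z => Bm (ch k) x ((ch k).φ z).1)
      (B' := fun z => Bm (ch k') x ((ch k').φ z).1) ?_ he
    filter_upwards [h3, (hO k).mem_nhds hx.1.1, (hO k').mem_nhds hx.1.2] with z k1 k2 k3 k4
    obtain ⟨c1, c2, c3, c4, c5, c6, c7, c8, c9⟩ := k1
    refine ⟨c1, c6, c7, h1 k z k2 (hm z k4).1 (hm z k4).2, h1 k' z k3 (hm z k4).1 (hm z k4).2,
      ?_, ?_, lam_jd hn h tr _ _ h₀ c1 c2 c3⟩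
    · rw [hX k _ c4]; exact c8
    · rw [hX k' _ c5]; exact c9

end

end Crest.Agent.X261.Shp21
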